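import Vale.Agent.P247.H647.Sta

/-!
# P247, Stage 2, S2: `FRM_statement`

Linear algebra of the frame.
-/

open scoped ContDiff Topology
open Set MeasureTheory Filter Metric

noncomputable section

namespace Vale.Agent.P247.H726

open Vale.Agent.P247.H74 Vale.Agent.P247.H574 Vale.Agent.P247.H647

theorem vec_eq (u : R4) : u = u 0 • e 0 + u 1 • e 1 + u 2 • e 2 + u 3 • e 3 := by
  funext i
  fin_cases i <;> simp [e]

/-- expansion of an alternating form in the standard basis -/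
theorem alt_expand {Φ : F2} (h : ∀ p, Φ p p = 0) (u v : R4) :
    Φ u v = Φ (e 0) (e 1) * (u 0 * v 1 - u 1 * v 0) + Φ (e 0) (e 2) * (u 0 * v 2 - u 2 * v 0)
      + Φ (e 0) (e 3) * (u 0 * v 3 - u 3 * v 0) + Φ (e 1) (e 2) * (u 1 * v 2 - u 2 * v 1)
      + Φ (e 1) (e 3) * (u 1 * v 3 - u 3 * v 1) + Φ (e 2) (e 3) * (u 2 * v 3 - u 3 * v 2) := by
  have hs : ∀ p q, Φ p q = - Φ q p := by
    intro p q
    have h1 := h (p + q)
    simp only [map_add, add_apply, h, zero_add, add_zero] at h1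
    linarith
  have h10 := hs (e 1) (e 0)
  have h20 := hs (e 2) (e 0)
  have h30 := hs (e 3) (e 0)
  have h21 := hs (e 2) (e 1)
  have h31 := hs (e 3) (e 1)
  have h32 := hs (e 3) (e 2)
  conv_lhs => rw [vec_eq u, vec_eq v]
  simp only [map_add, map_smul, add_apply, smul_apply, smul_eq_mul, h, h10, h20, h30, h21, h31,
    h32]
  ring

theorem det4 (b : Fin 4 → R4) : Matrix.det (Matrix.of fun i a => b a i) =
    (b 0 0 * b 1 1 - b 0 1 * b 1 0) * (b 2 2 * b 3 3 - b 2 3 * b 3 2)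
    - (b 0 0 * b 1 2 - b 0 2 * b 1 0) * (b 2 1 * b 3 3 - b 2 3 * b 3 1)
    + (b 0 0 * b 1 3 - b 0 3 * b 1 0) * (b 2 1 * b 3 2 - b 2 2 * b 3 1)
    + (b 0 1 * b 1 2 - b 0 2 * b 1 1) * (b 2 0 * b 3 3 - b 2 3 * b 3 0)
    - (b 0 1 * b 1 3 - b 0 3 * b 1 1) * (b 2 0 * b 3 2 - b 2 2 * b 3 0)
    + (b 0 2 * b 1 3 - b 0 3 * b 1 2) * (b 2 0 * b 3 1 - b 2 1 * b 3 0) := by
  rw [Matrix.det_succ_row_zero]
  simp [Fin.sum_univ_succ, Matrix.det_fin_three, Fin.succAbove, Matrix.submatrix]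
  ring

theorem w4_frame {Φ Ψ : F2} (hΦ : ∀ p, Φ p p = 0) (hΨ : ∀ p, Ψ p p = 0) (b : Fin 4 → R4) :
    wdA (fr b fun p q => Φ p q) (fr b fun p q => Ψ p q) =
      Matrix.det (Matrix.of fun i a => b a i) * w4 (fun p q => Φ p q) (fun p q => Ψ p q) := by
  rw [det4]
  simp only [wdA, fr, w4]
  rw [alt_expand hΦ (b 0) (b 1), alt_expand hΦ (b 0) (b 2), alt_expand hΦ (b 0) (b 3),
    alt_expand hΦ (b 1) (b 2), alt_expand hΦ (b 1) (b 3), alt_expand hΦ (b 2) (b 3),
    alt_expand hΨ (b 0) (b 1), alt_expand hΨ (b 0) (b 2), alt_expand hΨ (b 0) (b 3),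
    alt_expand hΨ (b 1) (b 2), alt_expand hΨ (b 1) (b 3), alt_expand hΨ (b 2) (b 3)]
  generalize Φ (e 0) (e 1) = f01
  generalize Φ (e 0) (e 2) = f02
  generalize Φ (e 0) (e 3) = f03
  generalize Φ (e 1) (e 2) = f12
  generalize Φ (e 1) (e 3) = f13
  generalize Φ (e 2) (e 3) = f23
  generalize Ψ (e 0) (e 1) = g01
  generalize Ψ (e 0) (e 2) = g02
  generalize Ψ (e 0) (e 3) = g03
  generalize Ψ (e 1) (e 2) = g12
  generalize Ψ (e 1) (e 3) = g13
  generalize Ψ (e 2) (e 3) = g23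
  ring

theorem exists_notin (u v : R4) : ∃ w : R4, ∀ p q : ℝ, w ≠ p • u + q • v := by
  by_contra hcon
  push Not at hcon
  have h1 : Submodule.span ℝ ({u, v} : Set R4) = ⊤ := by
    rw [eq_top_iff]
    intro w _
    obtain ⟨p, q, h⟩ := hcon w
    exact Submodule.mem_span_pair.2 ⟨p, q, h.symm⟩
  have h2 : Module.finrank ℝ (Submodule.span ℝ ({u, v} : Set R4)) ≤ 2 := by
    classical
    have := finrank_span_le_card (R := ℝ) ({u, v} : Set R4)
    refine this.trans ?_
    have h3 : ({u, v} : Set R4).toFinset ⊆ ({u, v} : Finset R4) := by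
      intro z hz
      simpa using hz
    exact (Finset.card_le_card h3).trans Finset.card_le_two
  rw [h1, finrank_top] at h2
  simp at h2

variable {J K : R4 →ₗ[ℝ] R4}

theorem ind {u : R4} (hJ : ∀ u, J (J u) = -u) (hu : u ≠ 0) {p q : ℝ} (h : p • u + q • J u = 0) :
    p = 0 ∧ q = 0 := by
  have h1 : p • (p • u + q • J u) - q • J (p • u + q • J u) = (p ^ 2 + q ^ 2) • u := by
    rw [map_add, map_smul, map_smul, hJ]
    module
  rw [h] at h1
  simp only [smul_zero, map_zero, sub_zero] at h1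
  have h2 : p ^ 2 + q ^ 2 = 0 := by
    rcases smul_eq_zero.1 h1.symm with h3 | h3
    · exact h3
    · exact absurd h3 hu
  constructor <;> nlinarith [sq_nonneg p, sq_nonneg q]

theorem comp {u w : R4} (hJ : ∀ u, J (J u) = -u) (hu : u ≠ 0)
    (hw : ∀ p q : ℝ, w ≠ p • u + q • J u)
    (h : ∀ u, u ≠ 0 → ∃ a b : ℝ, 0 < b ∧ K u = a • u + b • J u) {a b c d : ℝ}
    (h1 : K u = a • u + b • J u) (h2 : K w = c • w + d • J w) : a = c ∧ b = d := by
  have h3 : u + w ≠ 0 := by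
    intro h4
    apply hw (-1) 0
    have : w = -u := by
      rw [eq_neg_iff_add_eq_zero, add_comm]; exact h4
    rw [this]; module
  obtain ⟨p, q, -, h4⟩ := h _ h3
  rw [map_add, h1, h2, map_add] at h4
  have h5 : (p - c) • w + (q - d) • J w = (a - p) • u + (b - q) • J u := by
    have : (p - c) • w + (q - d) • J w - ((a - p) • u + (b - q) • J u) =
      p • (u + w) + q • (J u + J w) - (a • u + b • J u + (c • w + d • J w)) := by module
    rw [← sub_eq_zero, this, h4, sub_self]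
  have h6 : ((p - c) ^ 2 + (q - d) ^ 2) • w = ((p - c) * (a - p) + (q - d) * (b - q)) • u +
      ((p - c) * (b - q) - (q - d) * (a - p)) • J u := by
    have e1 : (p - c) • ((p - c) • w + (q - d) • J w) - (q - d) • J ((p - c) • w + (q - d) • J w)
        = ((p - c) ^ 2 + (q - d) ^ 2) • w := by
      rw [map_add, map_smul, map_smul, hJ]
      module
    rw [← e1, h5, map_add, map_smul, map_smul, hJ]
    module
  have h7 : (p - c) ^ 2 + (q - d) ^ 2 = 0 := by
    by_contra h8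
    apply hw (((p - c) ^ 2 + (q - d) ^ 2)⁻¹ * ((p - c) * (a - p) + (q - d) * (b - q)))
      (((p - c) ^ 2 + (q - d) ^ 2)⁻¹ * ((p - c) * (b - q) - (q - d) * (a - p)))
    rw [mul_smul, mul_smul, ← smul_add, ← h6, smul_smul, inv_mul_cancel₀ h8, one_smul]
  have h8 : p - c = 0 := by nlinarith [sq_nonneg (p - c), sq_nonneg (q - d)]
  have h9 : q - d = 0 := by nlinarith [sq_nonneg (p - c), sq_nonneg (q - d)]
  rw [h8, h9, zero_smul, zero_smul, zero_add] at h5
  obtain ⟨h10, h11⟩ := ind hJ hu h5.symm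
  constructor <;> linarith

/-- A linear map which preserves every complex line in the positive sense and whose square is a
negative multiple of the identity is a multiple of the complex structure. -/
theorem lin_lemma (hJ : ∀ u, J (J u) = -u) {s : ℝ} (hs : 0 ≤ s)
    (hK : ∀ u, K (K u) = -(s ^ 2) • u)
    (h : ∀ u, u ≠ 0 → ∃ a b : ℝ, 0 < b ∧ K u = a • u + b • J u) (u : R4) : K u = s • J u := by
  by_cases hu : u = 0
  · simp [hu]
  obtain ⟨w, hw⟩ := exists_notin u (J u)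
  have hw0 : w ≠ 0 := by
    intro h0; apply hw 0 0; simp [h0]
  obtain ⟨a, b, hb, h1⟩ := h u hu
  obtain ⟨c, d, -, h2⟩ := h w hw0
  have hJu : J u ≠ 0 := by
    intro h0
    apply hu
    have := hJ u
    rw [h0, map_zero] at this
    exact neg_eq_zero.1 this.symm
  obtain ⟨a', b', -, h3⟩ := h (J u) hJu
  obtain ⟨e1, e2⟩ := comp hJ hu hw h h1 h2
  obtain ⟨e3, e4⟩ := comp hJ hJu (w := w) (by
    intro p q hpq
    apply hw (-q) p
    rw [hpq, hJ]; module) h h3 h2
  have h4 := hK u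
  rw [h1, map_add, map_smul, map_smul, h1, h3, hJ, e3, e4, ← e1, ← e2] at h4
  have h5 : (a ^ 2 - b ^ 2 + s ^ 2) • u + (2 * a * b) • J u = 0 := by
    have : (a ^ 2 - b ^ 2 + s ^ 2) • u + (2 * a * b) • J u =
      a • (a • u + b • J u) + b • (a • J u + b • -u) - -(s ^ 2) • u := by module
    rw [this, h4, sub_self]
  obtain ⟨h6, h7⟩ := ind hJ hu h5
  have h8 : a = 0 := by
    rcases mul_eq_zero.1 h7 with h9 | h9
    · linarith
    · exact absurd h9 hb.ne'
  have h9 : b = s := by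
    rw [h8] at h6
    have : b ^ 2 = s ^ 2 := by linarith
    exact (pow_left_inj₀ hb.le hs (by norm_num)).1 this
  rw [h1, h8, h9, zero_smul, zero_add]

/-- a closed form as an alternating bilinear form -/
theorem val_cf2 (a : CForm) (x p q : R4) : a.val x p q = cf2 a x p q := by
  simp [CForm.val, cf2, dd]
  ring

theorem cf2_self (a : CForm) (x p : R4) : cf2 a x p p = 0 := by
  rw [← val_cf2]
  simp [CForm.val, a.κ_self]

theorem F2_swap {Φ : F2} (h : ∀ p, Φ p p = 0) (p q : R4) : Φ p q = - Φ q p := by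
  have h1 := h (p + q)
  simp only [map_add, add_apply, h, zero_add, add_zero] at h1
  linarith

theorem w4_b {D : Data} (Q : Quat D) (x : R4) {Φ Ψ : F2} (hΦ : ∀ p, Φ p p = 0)
    (hΨ : ∀ p, Ψ p p = 0) : w4 (fun p q => Φ p q) (fun p q => Ψ p q) =
      wdA (fr (fun a => Q.b a x) fun p q => Φ p q) (fr (fun a => Q.b a x) fun p q => Ψ p q) := by
  rw [w4_frame hΦ hΨ, Q.b_det, one_mul]

theorem w4_tri {D : Data} (Q : Quat D) (x : R4) {Φ : F2} (hΦ : ∀ p, Φ p p = 0) (j : Fin 3) :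
    w4 (fun p q => Φ p q) (fun p q => (tri D j).val x p q) =
    ∑ k, Q.T x j k * hat (fr (fun a => Q.b a x) fun p q => Φ p q) k := by
  have h1 : w4 (fun p q => Φ p q) (fun p q => (tri D j).val x p q) =
      w4 (fun p q => Φ p q) (fun p q => cf2 (tri D j) x p q) := by
    simp only [w4, val_cf2]
  rw [h1, w4_b Q x hΦ (cf2_self _ x)]
  have h2 : (fr (fun a => Q.b a x) fun p q => cf2 (tri D j) x p q) =
      fun a c => ∑ k, Q.T x j k * omM k a c := by
    funext a c
    rw [fr, ← val_cf2, Q.tri_b]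
  have h3 : Φ (Q.b 3 x) (Q.b 1 x) = - Φ (Q.b 1 x) (Q.b 3 x) := F2_swap hΦ _ _
  rw [h2]
  simp [wdA, Fin.sum_univ_succ, omM, hat, fr, h3]
  ring

/-- the coefficients of the direction of `om` -/
def nv {D : Data} (Q : Quat D) (x : R4) : Fin 3 → ℝ := Q.dv x (Pi.single 0 1)

theorem T_nv {D : Data} (Q : Quat D) (x : R4) (j : Fin 3) :
    ∑ k, Q.T x j k * nv Q x k = if j = 0 then 1 else 0 := by
  have h1 : (Q.T x).mulVec (nv Q x) = Pi.single 0 1 := by
    rw [nv, Quat.dv, Matrix.mulVec_mulVec, Matrix.mul_nonsing_inv _ (isUnit_iff_ne_zero.2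
      (Q.T_det x)), Matrix.one_mulVec]
  have h2 := congrFun h1 j
  rw [Matrix.mulVec, dotProduct] at h2
  rw [h2, Pi.single_apply]

/-- the matrix of the frame -/
def Bm {D : Data} (Q : Quat D) (x : R4) : Matrix (Fin 4) (Fin 4) ℝ :=
  Matrix.of fun i a => Q.b a x i

/-- the antisymmetric matrix of the direction of `om` -/
def Nm {D : Data} (Q : Quat D) (x : R4) : Matrix (Fin 4) (Fin 4) ℝ :=
  Matrix.of fun a c => ∑ k, nv Q x k * omM k a c

theorem Bm_unit {D : Data} (Q : Quat D) (x : R4) : IsUnit (Bm Q x).det := by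
  rw [Bm, Q.b_det]; exact isUnit_one

theorem len_nonneg' (v : Fin 3 → ℝ) : 0 ≤ len v := Real.sqrt_nonneg _

theorem Nm_sq {D : Data} (Q : Quat D) (x : R4) :
    (Nm Q x).transpose * (Nm Q x).transpose = -(len (nv Q x) ^ 2) • 1 := by
  rw [len, Real.sq_sqrt (Finset.sum_nonneg fun _ _ => sq_nonneg _)]
  ext a c
  fin_cases a <;> fin_cases c <;>
    simp [Nm, Matrix.mul_apply, Fin.sum_univ_succ, omM] <;> ring

theorem B_mulVec {D : Data} (Q : Quat D) (x y : R4) :
    (Bm Q x).mulVec y = ∑ a, y a • Q.b a x := by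
  funext i
  simp [Matrix.mulVec, dotProduct, Bm, mul_comm]

/-- the form `tri j` in coordinates -/
theorem tri_coord {D : Data} (Q : Quat D) (x y z : R4) (j : Fin 3) :
    (tri D j).val x ((Bm Q x).mulVec y) ((Bm Q x).mulVec z) =
      ∑ a, ∑ c, y a * z c * ∑ k, Q.T x j k * omM k a c := by
  rw [B_mulVec, B_mulVec, val_cf2]
  simp only [map_sum, sum_apply, map_smul, smul_apply, smul_eq_mul]
  simp only [← val_cf2, Q.tri_b, Finset.mul_sum]
  rw [Finset.sum_comm]
  refine Finset.sum_congr rfl fun a _ => Finset.sum_congr rfl fun c _ =>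
    Finset.sum_congr rfl fun k _ => ?_
  ring

/-- the linear map `K` -/
def Km {D : Data} (Q : Quat D) (x : R4) : R4 →ₗ[ℝ] R4 :=
  Matrix.toLin' (Bm Q x * (Nm Q x).transpose * (Bm Q x)⁻¹)

theorem Km_apply {D : Data} (Q : Quat D) (x y : R4) :
    Km Q x ((Bm Q x).mulVec y) = (Bm Q x).mulVec ((Nm Q x).transpose.mulVec y) := by
  rw [Km, Matrix.toLin'_apply, Matrix.mulVec_mulVec, Matrix.mul_assoc, Matrix.mul_assoc,
    Matrix.nonsing_inv_mul _ (Bm_unit Q x), Matrix.mul_one, Matrix.mulVec_mulVec]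

theorem B_surj {D : Data} (Q : Quat D) (x u : R4) : ∃ y, (Bm Q x).mulVec y = u :=
  ⟨(Bm Q x)⁻¹.mulVec u, by
    rw [Matrix.mulVec_mulVec, Matrix.mul_nonsing_inv _ (Bm_unit Q x), Matrix.one_mulVec]⟩

theorem tri_K {D : Data} (Q : Quat D) (x y : R4) (j : Fin 3) :
    (tri D j).val x ((Bm Q x).mulVec y) (Km Q x ((Bm Q x).mulVec y)) =
      (if j = 0 then 1 else 0) * ∑ a, y a ^ 2 := by
  rw [Km_apply, tri_coord, ← T_nv Q x j]
  simp [Nm, Matrix.mulVec, dotProduct, Fin.sum_univ_succ, omM]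
  ring

theorem frm : FRM_statement := by
  intro D Q x
  refine ⟨fun Φ Ψ hΦ hΨ => w4_b Q x hΦ hΨ, fun Φ hΦ j => w4_tri Q x hΦ j, fun a => ?_⟩
  have hJ : ∀ u, (D.J x : R4 →ₗ[ℝ] R4) ((D.J x : R4 →ₗ[ℝ] R4) u) = -u := fun u => D.J_sq x u
  have hK : ∀ u, Km Q x (Km Q x u) = -(len (nv Q x) ^ 2) • u := by
    intro u
    obtain ⟨y, rfl⟩ := B_surj Q x u
    rw [Km_apply, Km_apply, Matrix.mulVec_mulVec y, Nm_sq]
    simp only [Matrix.smul_mulVec, Matrix.one_mulVec, Matrix.mulVec_smul]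
  have h : ∀ u, u ≠ 0 → ∃ a b : ℝ, 0 < b ∧ Km Q x u = a • u + b • (D.J x : R4 →ₗ[ℝ] R4) u := by
    intro u hu
    obtain ⟨y, rfl⟩ := B_surj Q x u
    have hy : y ≠ 0 := by
      rintro rfl; exact hu (Matrix.mulVec_zero _)
    obtain ⟨p, q, hpq⟩ := D.nd x _ (Km Q x ((Bm Q x).mulVec y)) hu (by
      intro j
      fin_cases j
      · have := tri_K Q x y 1
        simpa [tri] using this
      · have := tri_K Q x y 2
        simpa [tri] using this)
    have h0 := tri_K Q x y 0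
    have hpos : 0 < ∑ a, y a ^ 2 := by
      obtain ⟨i, hi⟩ := Function.ne_iff.1 hy
      exact Finset.sum_pos' (fun _ _ => sq_nonneg _) ⟨i, Finset.mem_univ _, by
        have : y i ≠ 0 := hi
        positivity⟩
    have ht := D.tame x _ hu
    rw [hpq] at h0
    have h1 : (tri D 0).val x ((Bm Q x).mulVec y)
        (p • (Bm Q x).mulVec y + q • D.J x ((Bm Q x).mulVec y)) =
        q * D.om.val x ((Bm Q x).mulVec y) (D.J x ((Bm Q x).mulVec y)) := by
      have h2 : tri D 0 = D.om := rfl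
      rw [h2, val_cf2, val_cf2]
      simp only [map_add, map_smul, smul_eq_mul, cf2_self, mul_zero, zero_add]
    rw [h1] at h0
    simp only [if_true, one_mul] at h0
    refine ⟨p, q, ?_, hpq⟩
    by_contra hq
    push Not at hq
    have : q * D.om.val x ((Bm Q x).mulVec y) (D.J x ((Bm Q x).mulVec y)) ≤ 0 :=
      mul_nonpos_of_nonpos_of_nonneg hq ht.le
    linarith
  have hfin := lin_lemma hJ (len_nonneg' _) hK h (Q.b a x)
  have hb : Q.b a x = (Bm Q x).mulVec (Pi.single a 1) := by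
    rw [B_mulVec]
    simp [Pi.single_apply]
  have h5 : Km Q x (Q.b a x) = ∑ c, (∑ k, nv Q x k * omM k a c) • Q.b c x := by
    rw [hb, Km_apply, B_mulVec]
    refine Finset.sum_congr rfl fun c _ => ?_
    congr 1
    simp [Nm]
  rw [h5] at hfin
  exact hfin.symm

end Vale.Agent.P247.H726
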