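import Vale.Agent.P247.H647.Sta

/-!
# P247, Stage 2, S2: `TOP_statement`

Integration of closed forms over the unit cube.
-/

open scoped ContDiff Topology
open Set MeasureTheory Filter Metric

noncomputable section

namespace Vale.Agent.P247.H726

open Vale.Agent.P247.H74 Vale.Agent.P247.H574 Vale.Agent.P247.H647

/-- The integral of a derivative of a periodic function over the cube is zero. -/
theorem int_deriv_zero {g : R4 → ℝ} (hg : ContDiff ℝ 1 g) (hp : Per4 g) (i : Fin 4) :
    ∫ x in cube, fderiv ℝ g x (e i) = 0 := by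
  classical
  have hd : Differentiable ℝ g := hg.differentiable (by norm_num)
  have hcf : Continuous (fderiv ℝ g) := hg.continuous_fderiv (by norm_num)
  have key := MeasureTheory.integral_divergence_of_hasFDerivAt_off_countable'
    (n := 3) (E := ℝ) (a := (0 : Fin 4 → ℝ)) (b := 1) (by
      intro j; norm_num) (fun j x => if j = i then g x else 0)
    (fun j x => if j = i then fderiv ℝ g x else 0) ∅ Set.countable_empty
    (by
      intro j
      by_cases h : j = i
      · simpa [h] using hd.continuous.continuousOn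
      · simpa [h] using continuousOn_const)
    (by
      intro x _ j
      by_cases h : j = i
      · simpa [h] using (hd x).hasFDerivAt
      · simpa [h] using hasFDerivAt_const (0 : ℝ) x)
    (by
      have hc : Continuous fun x : Fin 4 → ℝ =>
          ∑ j : Fin 4, (if j = i then fderiv ℝ g x else 0 : (Fin 4 → ℝ) →L[ℝ] ℝ)
            (Pi.single j 1) := by
        refine continuous_finsetSum _ fun j _ => ?_
        by_cases h : j = i
        · simp only [h, if_true]
          exact hcf.clm_apply continuous_const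
        · simp only [h, if_false]
          exact continuous_const
      exact hc.continuousOn.integrableOn_compact isCompact_Icc)
  have h1 : ∀ x : Fin 4 → ℝ, ∑ j : Fin 4,
      (if j = i then fderiv ℝ g x else 0 : (Fin 4 → ℝ) →L[ℝ] ℝ) (Pi.single j 1)
        = fderiv ℝ g x (e i) := by
    intro x
    rw [Finset.sum_eq_single i]
    · simp [e]
    · intro j _ hj
      simp [hj]
    · simp
  simp only [h1] at key
  rw [cube, key]
  refine Finset.sum_eq_zero fun j _ => ?_
  by_cases h : j = i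
  · subst h
    simp only [if_true]
    rw [sub_eq_zero]
    congr 1
    funext y
    have h2 : (Fin.insertNth j ((1 : Fin 4 → ℝ) j) y : Fin 4 → ℝ)
        = tr (Pi.single j 1) (Fin.insertNth j ((0 : Fin 4 → ℝ) j) y) := by
      funext k
      simp only [tr]
      refine Fin.succAboveCases j ?_ ?_ k
      · simp
      · intro l
        simp
    rw [h2, hp]
  · simp [h]


theorem cube_compact : IsCompact cube := isCompact_Icc

theorem intOn {g : R4 → ℝ} (hg : Continuous g) : IntegrableOn g cube :=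
  hg.continuousOn.integrableOn_compact cube_compact

/-- continuous functions with integral zero -/
def ZI (g : R4 → ℝ) : Prop := Continuous g ∧ ∫ x in cube, g x = 0

theorem ZI.add {f g : R4 → ℝ} (hf : ZI f) (hg : ZI g) : ZI fun x => f x + g x := by
  refine ⟨hf.1.add hg.1, ?_⟩
  rw [integral_add (intOn hf.1) (intOn hg.1), hf.2, hg.2, add_zero]

theorem ZI.sub {f g : R4 → ℝ} (hf : ZI f) (hg : ZI g) : ZI fun x => f x - g x := by
  refine ⟨hf.1.sub hg.1, ?_⟩
  rw [integral_sub (intOn hf.1) (intOn hg.1), hf.2, hg.2, sub_zero]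

theorem ZI.mul {f : R4 → ℝ} (hf : ZI f) (c : ℝ) : ZI fun x => c * f x := by
  refine ⟨continuous_const.mul hf.1, ?_⟩
  rw [integral_const_mul, hf.2, mul_zero]

theorem per_fderiv {E : Type*} [NormedAddCommGroup E] [NormedSpace ℝ E] {g : R4 → E}
    (hp : Per4 g) : Per4 (fderiv ℝ g) := by
  intro n x
  have h : (fun y => g (tr n y)) = g := by
    funext y; exact hp n y
  have h2 : (fun y : R4 => g (tr n y)) = fun y => g (y + fun i => (n i : ℝ)) := by
    funext y; rfl
  have h3 : fderiv ℝ (fun y : R4 => g (y + fun i => (n i : ℝ))) x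
      = fderiv ℝ g (x + fun i => (n i : ℝ)) := fderiv_comp_add_right _
  have h4 : tr n x = x + fun i => (n i : ℝ) := rfl
  rw [h4, ← h3, ← h2, h]

theorem zi_deriv {g : R4 → ℝ} (hg : ContDiff ℝ 1 g) (hp : Per4 g) (i : Fin 4) :
    ZI fun x => fderiv ℝ g x (e i) :=
  ⟨(hg.continuous_fderiv (by norm_num)).clm_apply continuous_const, int_deriv_zero hg hp i⟩

/-- the basic integration by parts -/
theorem zi_pair {f g : R4 → ℝ} (hf : ContDiff ℝ ∞ f) (hg : ContDiff ℝ ∞ g) (hpf : Per4 f)
    (hpg : Per4 g) (i k : Fin 4) :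
    ZI fun x => fderiv ℝ f x (e i) * fderiv ℝ g x (e k) -
      fderiv ℝ f x (e k) * fderiv ℝ g x (e i) := by
  have hdg : ContDiff ℝ ∞ (fderiv ℝ g) := hg.fderiv_right (by norm_cast)
  have hde : ∀ j, ContDiff ℝ ∞ fun x => fderiv ℝ g x (e j) := fun j =>
    hdg.clm_apply contDiff_const
  have hF : ∀ j, ContDiff ℝ ∞ fun x => f x * fderiv ℝ g x (e j) := fun j => hf.mul (hde j)
  have hP : ∀ j, Per4 fun x => f x * fderiv ℝ g x (e j) := by
    intro j n x
    simp only [hpf n x, per_fderiv hpg n x]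
  have hdf : Differentiable ℝ f := hf.differentiable (by norm_num)
  have hdd : ∀ j l x, fderiv ℝ (fun x => f x * fderiv ℝ g x (e j)) x (e l)
      = fderiv ℝ f x (e l) * fderiv ℝ g x (e j)
        + f x * fderiv ℝ (fderiv ℝ g) x (e l) (e j) := by
    intro j l x
    have h1 : HasFDerivAt f (fderiv ℝ f x) x := (hdf x).hasFDerivAt
    have h2 : HasFDerivAt (fderiv ℝ g) (fderiv ℝ (fderiv ℝ g) x) x :=
      ((hdg.differentiable (by norm_num)) x).hasFDerivAt
    have h3 : HasFDerivAt (fun x => fderiv ℝ g x (e j))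
        ((fderiv ℝ (fderiv ℝ g) x).flip (e j)) x :=
      (h2.clm_apply (hasFDerivAt_const (e j) x)).congr_fderiv (by ext v; simp)
    have h4 : (fun x => f x * fderiv ℝ g x (e j)) = f * fun x => fderiv ℝ g x (e j) := rfl
    rw [h4, (h1.mul h3).fderiv]
    simp
    ring
  have hsym : ∀ x, fderiv ℝ (fderiv ℝ g) x (e i) (e k) = fderiv ℝ (fderiv ℝ g) x (e k) (e i) := by
    intro x
    have := (hg.contDiffAt (x := x)).isSymmSndFDerivAt
      (by simp only [minSmoothness_of_isRCLikeNormedField]; 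
          exact WithTop.coe_le_coe.2 le_top)
    exact this (e i) (e k)
  have h := (zi_deriv ((hF k).of_le (by norm_cast)) (hP k) i).sub
    (zi_deriv ((hF i).of_le (by norm_cast)) (hP i) k)
  have he : (fun x => fderiv ℝ (fun x => f x * fderiv ℝ g x (e k)) x (e i) -
      fderiv ℝ (fun x => f x * fderiv ℝ g x (e i)) x (e k)) = fun x =>
      fderiv ℝ f x (e i) * fderiv ℝ g x (e k) - fderiv ℝ f x (e k) * fderiv ℝ g x (e i) := by
    funext x
    rw [hdd, hdd, hsym]
    ring
  rw [← he]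
  exact h

/-- the components of a one-form -/
theorem comp_fderiv {l : R4 → R4 →L[ℝ] ℝ} (hl : ContDiff ℝ ∞ l) (j : Fin 4) (x u : R4) :
    fderiv ℝ (fun x => l x (e j)) x u = fderiv ℝ l x u (e j) := by
  have h2 : HasFDerivAt l (fderiv ℝ l x) x := ((hl.differentiable (by norm_num)) x).hasFDerivAt
  have := h2.clm_apply (hasFDerivAt_const (e j) x)
  rw [this.fderiv]
  simp

/-- the integral of the wedge product of two closed forms -/
theorem int_w4 {l m : R4 → R4 →L[ℝ] ℝ} (hl : ContDiff ℝ ∞ l) (hm : ContDiff ℝ ∞ m)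
    (hpl : Per4 l) (hpm : Per4 m) (K N : R4 → R4 → ℝ) :
    ∫ x in cube, w4 (fun p q => K p q + dd l x p q) (fun p q => N p q + dd m x p q)
      = w4 K N := by
  have hcl : ∀ j, ContDiff ℝ ∞ fun x => l x (e j) := fun j => hl.clm_apply contDiff_const
  have hcm : ∀ j, ContDiff ℝ ∞ fun x => m x (e j) := fun j => hm.clm_apply contDiff_const
  have hql : ∀ j, Per4 fun x => l x (e j) := fun j n x => by simp only [hpl n x]
  have hqm : ∀ j, Per4 fun x => m x (e j) := fun j n x => by simp only [hpm n x]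
  have hL : ∀ i j, ZI fun x => fderiv ℝ l x (e i) (e j) := by
    intro i j
    have := zi_deriv ((hcl j).of_le (by norm_cast)) (hql j) i
    simpa only [comp_fderiv hl] using this
  have hM : ∀ i j, ZI fun x => fderiv ℝ m x (e i) (e j) := by
    intro i j
    have := zi_deriv ((hcm j).of_le (by norm_cast)) (hqm j) i
    simpa only [comp_fderiv hm] using this
  have hLM : ∀ i k j o, ZI fun x => fderiv ℝ l x (e i) (e j) * fderiv ℝ m x (e k) (e o) -
      fderiv ℝ l x (e k) (e j) * fderiv ℝ m x (e i) (e o) := by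
    intro i k j o
    have := zi_pair (hcl j) (hcm o) (hql j) (hqm o) i k
    simpa only [comp_fderiv hl, comp_fderiv hm] using this
  -- the difference is a sum of terms of integral zero
  have hdl : ∀ i j, ZI fun x => dd l x (e i) (e j) := fun i j => by
    simpa [dd] using (hL i j).sub (hL j i)
  have hdm : ∀ i j, ZI fun x => dd m x (e i) (e j) := fun i j => by
    simpa [dd] using (hM i j).sub (hM j i)
  have A1 : ZI fun x => K (e 0) (e 1) * dd m x (e 2) (e 3) - K (e 0) (e 2) * dd m x (e 1) (e 3)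
      + K (e 0) (e 3) * dd m x (e 1) (e 2) + K (e 1) (e 2) * dd m x (e 0) (e 3)
      - K (e 1) (e 3) * dd m x (e 0) (e 2) + K (e 2) (e 3) * dd m x (e 0) (e 1) :=
    ((((((hdm 2 3).mul _).sub ((hdm 1 3).mul _)).add ((hdm 1 2).mul _)).add
      ((hdm 0 3).mul _)).sub ((hdm 0 2).mul _)).add ((hdm 0 1).mul _)
  have A2 : ZI fun x => N (e 2) (e 3) * dd l x (e 0) (e 1) - N (e 1) (e 3) * dd l x (e 0) (e 2)
      + N (e 1) (e 2) * dd l x (e 0) (e 3) + N (e 0) (e 3) * dd l x (e 1) (e 2)
      - N (e 0) (e 2) * dd l x (e 1) (e 3) + N (e 0) (e 1) * dd l x (e 2) (e 3) :=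
    ((((((hdl 0 1).mul _).sub ((hdl 0 2).mul _)).add ((hdl 0 3).mul _)).add
      ((hdl 1 2).mul _)).sub ((hdl 1 3).mul _)).add ((hdl 2 3).mul _)
  have A3 : ZI fun x => w4 (fun p q => dd l x p q) (fun p q => dd m x p q) := by
    have h1 := (((((((((((hLM 0 2 1 3).add (hLM 1 3 0 2)).sub (hLM 0 3 1 2)).sub
      (hLM 1 2 0 3)).sub (hLM 0 1 2 3)).sub (hLM 2 3 0 1)).add (hLM 0 3 2 1)).add
      (hLM 1 2 3 0)).add (hLM 0 1 3 2)).add (hLM 2 3 1 0)).sub (hLM 0 2 3 1)).sub (hLM 1 3 2 0)
    convert h1 using 1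
    funext x
    simp only [w4, dd, sub_apply, ContinuousLinearMap.flip_apply]
    ring
  have A4 := (A1.add A2).add A3
  have A5 : (fun x => w4 (fun p q => K p q + dd l x p q) (fun p q => N p q + dd m x p q))
      = fun x => w4 K N + (((K (e 0) (e 1) * dd m x (e 2) (e 3)
      - K (e 0) (e 2) * dd m x (e 1) (e 3)
      + K (e 0) (e 3) * dd m x (e 1) (e 2) + K (e 1) (e 2) * dd m x (e 0) (e 3)
      - K (e 1) (e 3) * dd m x (e 0) (e 2) + K (e 2) (e 3) * dd m x (e 0) (e 1)) +
      (N (e 2) (e 3) * dd l x (e 0) (e 1) - N (e 1) (e 3) * dd l x (e 0) (e 2)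
      + N (e 1) (e 2) * dd l x (e 0) (e 3) + N (e 0) (e 3) * dd l x (e 1) (e 2)
      - N (e 0) (e 2) * dd l x (e 1) (e 3) + N (e 0) (e 1) * dd l x (e 2) (e 3))) +
      w4 (fun p q => dd l x p q) (fun p q => dd m x p q)) := by
    funext x
    simp only [w4]
    ring
  rw [A5, integral_add (intOn continuous_const) (intOn A4.1), A4.2, add_zero]
  have hv : (volume : Measure R4).real cube = 1 := by
    have : (volume : Measure R4) cube = 1 := by
      rw [cube, Real.volume_Icc_pi]
      simp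
    simp [Measure.real, this]
  simp [hv]


/-- the gauge invariant primitive `Im (conj α ∇α)` -/
def prim (a : R4 → R4 →L[ℝ] ℝ) (α : R4 → ℂ) (x : R4) : R4 →L[ℝ] ℝ :=
  (α x).re • fderiv ℝ (fun y => (α y).im) x - (α x).im • fderiv ℝ (fun y => (α y).re) x
    - ((α x).re * (α x).re + (α x).im * (α x).im) • a x

theorem re_smooth {α : R4 → ℂ} (hα : ContDiff ℝ ∞ α) : ContDiff ℝ ∞ fun x => (α x).re :=
  Complex.reCLM.contDiff.comp hα

theorem im_smooth {α : R4 → ℂ} (hα : ContDiff ℝ ∞ α) : ContDiff ℝ ∞ fun x => (α x).im :=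
  Complex.imCLM.contDiff.comp hα

theorem fderiv_re {α : R4 → ℂ} (hα : ContDiff ℝ ∞ α) (x u : R4) :
    fderiv ℝ (fun x => (α x).re) x u = (fderiv ℝ α x u).re := by
  have h := Complex.reCLM.hasFDerivAt.comp x
    ((hα.differentiable (by norm_num)) x).hasFDerivAt
  have h2 : (⇑Complex.reCLM ∘ α) = fun x => (α x).re := rfl
  rw [h2] at h
  rw [h.fderiv]
  rfl

theorem fderiv_im {α : R4 → ℂ} (hα : ContDiff ℝ ∞ α) (x u : R4) :
    fderiv ℝ (fun x => (α x).im) x u = (fderiv ℝ α x u).im := by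
  have h := Complex.imCLM.hasFDerivAt.comp x
    ((hα.differentiable (by norm_num)) x).hasFDerivAt
  have h2 : (⇑Complex.imCLM ∘ α) = fun x => (α x).im := rfl
  rw [h2] at h
  rw [h.fderiv]
  rfl

theorem prim_smooth {a : R4 → R4 →L[ℝ] ℝ} {α : R4 → ℂ} (ha : ContDiff ℝ ∞ a)
    (hα : ContDiff ℝ ∞ α) : ContDiff ℝ ∞ (prim a α) := by
  have h1 := re_smooth hα
  have h2 := im_smooth hα
  have h3 : ContDiff ℝ ∞ (fderiv ℝ fun x => (α x).re) := h1.fderiv_right (by norm_cast)
  have h4 : ContDiff ℝ ∞ (fderiv ℝ fun x => (α x).im) := h2.fderiv_right (by norm_cast)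
  exact ((h1.smul h4).sub (h2.smul h3)).sub (((h1.mul h1).add (h2.mul h2)).smul ha)

theorem prim_apply {a : R4 → R4 →L[ℝ] ℝ} {α : R4 → ℂ} (hα : ContDiff ℝ ∞ α) (x u : R4) :
    prim a α x u = ((starRingEnd ℂ) (α x) * nab a α x u).im := by
  simp only [prim, sub_apply, smul_apply, fderiv_re hα, fderiv_im hα, nab, smul_eq_mul]
  simp
  ring

theorem dd_prim {a : R4 → R4 →L[ℝ] ℝ} {α : R4 → ℂ} (ha : ContDiff ℝ ∞ a)
    (hα : ContDiff ℝ ∞ α) (x u v : R4) :
    jac a α x u v = dd (fun y => a y + prim a α y) x u v := by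
  have h1 := re_smooth hα
  have h2 := im_smooth hα
  have h3 : ContDiff ℝ ∞ (fderiv ℝ fun x => (α x).re) := h1.fderiv_right (by norm_cast)
  have h4 : ContDiff ℝ ∞ (fderiv ℝ fun x => (α x).im) := h2.fderiv_right (by norm_cast)
  have k1 := ((h1.differentiable (by norm_num)) x).hasFDerivAt
  have k2 := ((h2.differentiable (by norm_num)) x).hasFDerivAt
  have k3 := ((h3.differentiable (by norm_num)) x).hasFDerivAt
  have k4 := ((h4.differentiable (by norm_num)) x).hasFDerivAt
  have k5 := ((ha.differentiable (by norm_num)) x).hasFDerivAt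
  have s1 : ∀ p q, fderiv ℝ (fderiv ℝ fun x => (α x).re) x p q
      = fderiv ℝ (fderiv ℝ fun x => (α x).re) x q p := fun p q =>
    (h1.contDiffAt (x := x)).isSymmSndFDerivAt
      (by simp only [minSmoothness_of_isRCLikeNormedField]
          exact WithTop.coe_le_coe.2 le_top) p q
  have s2 : ∀ p q, fderiv ℝ (fderiv ℝ fun x => (α x).im) x p q
      = fderiv ℝ (fderiv ℝ fun x => (α x).im) x q p := fun p q =>
    (h2.contDiffAt (x := x)).isSymmSndFDerivAt
      (by simp only [minSmoothness_of_isRCLikeNormedField]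
          exact WithTop.coe_le_coe.2 le_top) p q
  have key := (k5.add (((k1.smul k4).sub (k2.smul k3)).sub
    (((k1.mul k1).add (k2.mul k2)).smul k5))).fderiv
  have e1 : (fun y => a y + prim a α y) = a + (((fun x => (α x).re) •
      (fderiv ℝ fun x => (α x).im)) - ((fun x => (α x).im) • (fderiv ℝ fun x => (α x).re)) -
      (((fun x => (α x).re) * (fun x => (α x).re) + (fun x => (α x).im) * (fun x => (α x).im))
      • a)) := rfl
  rw [dd, e1, key]
  have n1 : ‖α x‖ ^ 2 = (α x).re * (α x).re + (α x).im * (α x).im := by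
    rw [← Complex.normSq_eq_norm_sq, Complex.normSq_apply]
  simp only [jac, nab, n1, dd, sub_apply, add_apply, ContinuousLinearMap.flip_apply,
    smul_apply, ContinuousLinearMap.smulRight_apply, s1 u v, s2 u v, smul_eq_mul,
    fderiv_re hα, fderiv_im hα]
  simp
  ring

theorem fderiv_quasi {α : R4 → ℂ} (hα : ContDiff ℝ ∞ α) (hq : QS α) (k : Fin 4 → ℤ) (x u : R4) :
    fderiv ℝ α (tr k x) u = Complex.exp (2 * Real.pi * Complex.I * k 0 * x 1) *
      (fderiv ℝ α x u + 2 * Real.pi * Complex.I * k 0 * u 1 * α x) := by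
  have hd := ((hα.differentiable (by norm_num)) x).hasFDerivAt
  have h1 : HasFDerivAt (fun y : R4 => (y 1 : ℝ)) (ContinuousLinearMap.proj 1 : R4 →L[ℝ] ℝ) x :=
    (ContinuousLinearMap.proj 1 : R4 →L[ℝ] ℝ).hasFDerivAt
  have h2 : HasFDerivAt (fun y : R4 => ((y 1 : ℝ) : ℂ))
      (Complex.ofRealCLM.comp (ContinuousLinearMap.proj 1 : R4 →L[ℝ] ℝ)) x :=
    Complex.ofRealCLM.hasFDerivAt.comp x h1
  have h3 := (h2.const_mul (2 * Real.pi * Complex.I * k 0)).cexp
  have h4 := h3.smul hd
  have h5 : (fun y : R4 => α (tr k y)) = (fun y : R4 =>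
      Complex.exp (2 * Real.pi * Complex.I * k 0 * y 1)) • α := by
    funext y
    exact hq k y
  have h6 : (fun y : R4 => α (tr k y)) = fun y => α (y + fun i => (k i : ℝ)) := by
    funext y; rfl
  have h7 : fderiv ℝ (fun y : R4 => α (y + fun i => (k i : ℝ))) x
      = fderiv ℝ α (x + fun i => (k i : ℝ)) := fderiv_comp_add_right _
  have h8 : tr k x = x + fun i => (k i : ℝ) := rfl
  rw [h8, ← h7, ← h6, h5, h4.fderiv]
  simp
  ring

theorem nab_quasi {a : R4 → R4 →L[ℝ] ℝ} {α : R4 → ℂ} (hqa : QA a) (hα : ContDiff ℝ ∞ α)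
    (hq : QS α) (k : Fin 4 → ℤ) (x u : R4) :
    nab a α (tr k x) u = Complex.exp (2 * Real.pi * Complex.I * k 0 * x 1) * nab a α x u := by
  have h1 : α (tr k x) = Complex.exp (2 * Real.pi * Complex.I * k 0 * x 1) * α x := hq k x
  rw [nab, nab, fderiv_quasi hα hq, hqa, h1]
  simp
  ring

theorem prim_per {a : R4 → R4 →L[ℝ] ℝ} {α : R4 → ℂ} (hqa : QA a) (hα : ContDiff ℝ ∞ α)
    (hq : QS α) : Per4 (prim a α) := by
  intro k x
  ext u
  rw [prim_apply hα, prim_apply hα, nab_quasi hqa hα hq, hq k x, smul_eq_mul]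
  have hn : (starRingEnd ℂ) (Complex.exp (2 * Real.pi * Complex.I * k 0 * x 1)) *
      Complex.exp (2 * Real.pi * Complex.I * k 0 * x 1) = 1 := by
    rw [← Complex.exp_conj, ← Complex.exp_add, Complex.exp_eq_one_iff]
    refine ⟨0, ?_⟩
    have h2 : (starRingEnd ℂ) (2 : ℂ) = 2 := Complex.conj_ofNat 2
    simp [h2]
  have h2 : (starRingEnd ℂ) (Complex.exp (2 * Real.pi * Complex.I * k 0 * x 1) * α x) *
      (Complex.exp (2 * Real.pi * Complex.I * k 0 * x 1) * nab a α x u) =
      ((starRingEnd ℂ) (Complex.exp (2 * Real.pi * Complex.I * k 0 * x 1)) *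
      Complex.exp (2 * Real.pi * Complex.I * k 0 * x 1)) *
      ((starRingEnd ℂ) (α x) * nab a α x u) := by
    rw [map_mul]
    ring
  rw [h2, hn, one_mul]

/-- integrals of `da ∧ κ` and `da ∧ da` -/
theorem int_dd {a : R4 → R4 →L[ℝ] ℝ} (κ : CForm) (ha : ContDiff ℝ ∞ a) (hqa : QA a) :
    ∫ x in cube, w4 (fun p q => dd a x p q) (κ.val x) = 2 * Real.pi * κ.κ (e 2) (e 3) ∧
    ∫ x in cube, w4 (fun p q => dd a x p q) (fun p q => dd a x p q) = 0 := by
  set l : R4 → R4 →L[ℝ] ℝ := fun x => a x -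
    (2 * Real.pi * x 0) • (ContinuousLinearMap.proj 1 : R4 →L[ℝ] ℝ)
    with hl
  have hx0 : ContDiff ℝ ∞ fun x : R4 => (2 * Real.pi * x 0 : ℝ) := by
    fun_prop
  have hls : ContDiff ℝ ∞ l := ha.sub (hx0.smul contDiff_const)
  have hlp : Per4 l := by
    intro k x
    simp only [hl, hqa k x]
    ext u
    simp [tr]
    ring
  have hdd : ∀ x p q, dd a x p q = 2 * Real.pi * (p 0 * q 1 - q 0 * p 1) + dd l x p q := by
    intro x p q
    have h0 : HasFDerivAt (fun y : R4 => (2 * Real.pi * y 0 : ℝ))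
        ((2 * Real.pi) • (ContinuousLinearMap.proj 0 : R4 →L[ℝ] ℝ)) x := by
      have h := ((ContinuousLinearMap.proj 0 : R4 →L[ℝ] ℝ).hasFDerivAt (x := x)).const_mul
        (2 * Real.pi)
      exact h
    have h1 := h0.smul (hasFDerivAt_const (ContinuousLinearMap.proj 1 : R4 →L[ℝ] ℝ) x)
    have h2 := (((ha.differentiable (by norm_num)) x).hasFDerivAt.sub h1).fderiv
    have h3 : l = a - ((fun y : R4 => (2 * Real.pi * y 0 : ℝ)) •
        fun _ => (ContinuousLinearMap.proj 1 : R4 →L[ℝ] ℝ)) := rfl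
    rw [dd, dd, h3, h2]
    simp
    ring
  have hkv : ∀ x p q, κ.val x p q = κ.κ p q + dd κ.lam x p q := by
    intro x p q
    simp [CForm.val, dd]
    ring
  have e1 : (fun x => w4 (fun p q => dd a x p q) (κ.val x)) = fun x => w4
      (fun p q => (fun p q : R4 => 2 * Real.pi * (p 0 * q 1 - q 0 * p 1)) p q + dd l x p q)
      (fun p q => (fun p q : R4 => κ.κ p q) p q + dd κ.lam x p q) := by
    funext x
    simp only [w4, hdd, hkv]
  have e2 : (fun x => w4 (fun p q => dd a x p q) (fun p q => dd a x p q)) = fun x => w4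
      (fun p q => (fun p q : R4 => 2 * Real.pi * (p 0 * q 1 - q 0 * p 1)) p q + dd l x p q)
      (fun p q => (fun p q : R4 => 2 * Real.pi * (p 0 * q 1 - q 0 * p 1)) p q + dd l x p q) := by
    funext x
    simp only [w4, hdd]
  constructor
  · rw [e1, int_w4 hls κ.lam_smooth hlp (fun n x => κ.lam_per n x)]
    simp [w4, e]
  · rw [e2, int_w4 hls hls hlp hlp]
    simp [w4, e]

theorem top : TOP_statement := by
  intro a α κ ha hqa hα hqα
  have h1 : ContDiff ℝ ∞ fun y => a y + prim a α y := ha.add (prim_smooth ha hα)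
  have h2 : QA fun y => a y + prim a α y := by
    intro k x
    simp only [hqa k x, prim_per hqa hα hqα k x]
    abel
  refine ⟨?_, int_dd κ ha hqa⟩
  have h3 : (fun x => w4 (jac a α x) (κ.val x)) = fun x =>
      w4 (fun p q => dd (fun y => a y + prim a α y) x p q) (κ.val x) := by
    funext x
    simp only [w4, dd_prim ha hα]
  rw [h3]
  exact (int_dd κ h1 h2).1

end Vale.Agent.P247.H726
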